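import Vale.Agent.P116.H906.Nodes

/-!
P116, step [7] (adaptation): the maximum principle through strong monotonicity (helper912).

`UpS K u t` is the strong superlevel set of a function `u` off `K` (696's definition, repeated
here with the same body): points off `K` with `t < u`, together with the points of `K` having a
node on which `u ≥ t'` off `K` for some `t' > t`.  If `UpS K u b ∪ wᶜ` is preconnected and
`u ≤ b` on `P0 \ K`, `P0 ⊆ w`, frontier off `K`, then `u ≤ b` on `fil P0 \ K`.
-/

open Set Metric Filter Topology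

namespace Vale.Agent.P116.AD.H912

open Vale.Agent.P116.H906

/-- strong superlevel set -/
def UpS (K : Set ℂ) (u : ℂ → ℝ) (t : ℝ) : Set ℂ :=
  {z | z ∉ K ∧ t < u z} ∪ {z | z ∈ K ∧ ∃ n, ∃ t' > t, ∀ y ∈ nd K n z, y ∉ K → t' ≤ u y}

/-- the strong superlevel set misses a set with frontier off `K` on which `u ≤ b` off `K` -/
lemma upS_disjoint {K P0 : Set ℂ} {u : ℂ → ℝ} {b : ℝ} (hK : IsCompact K)
    (hfr : Disjoint (frontier P0) K) (hub : ∀ z ∈ P0, z ∉ K → u z ≤ b) :
    Disjoint (UpS K u b) P0 := by
  rw [disjoint_left]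
  rintro x (⟨hxK, hx⟩ | ⟨hxK, n, t', ht', hx⟩) hxP
  · exact absurd (hub x hxP hxK) (not_le.2 hx)
  · -- the component of `K` at `x` is inside the interior of `P0`
    set c := connectedComponentIn K x with hc
    have hcK : c ⊆ K := connectedComponentIn_subset K x
    have hxc : x ∈ c := mem_connectedComponentIn hxK
    have hcP : c ⊆ P0 := subset_of_frontier_disjoint isPreconnected_connectedComponentIn
      ⟨x, hxc, hxP⟩ (disjoint_of_subset_left hcK hfr.symm)
    have hcint : c ⊆ interior P0 := by
      intro y hy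
      by_contra h
      have : y ∈ frontier P0 := by
        rw [frontier, mem_diff]
        exact ⟨subset_closure (hcP hy), h⟩
      exact disjoint_left.1 hfr this (hcK hy)
    have hcomp : IsCompact c := isCompact_comp hK x
    -- a frontier point of `c`
    have hcne : c ≠ univ := by
      intro h
      have := hcomp.isBounded
      rw [h] at this
      exact NormedSpace.unbounded_univ ℝ ℂ this
    obtain ⟨x0, hx0⟩ : (frontier c).Nonempty := by
      rw [nonempty_iff_ne_empty, Ne, frontier_eq_empty_iff]
      rintro (h | h)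
      · rw [h] at hxc; exact hxc
      · exact hcne h
    have hx0c : x0 ∈ c := hcomp.isClosed.frontier_subset hx0
    -- a small ball inside the interior of `P0` and the node
    obtain ⟨ε, hε, hball⟩ := Metric.isOpen_iff.1 isOpen_interior x0 (hcint hx0c)
    have hxnd : x0 ∈ nd K n x := by
      have hsub : c ⊆ nd K n x :=
        isPreconnected_connectedComponentIn.subset_connectedComponentIn hxc
          (hcK.trans (subset_lev n))
      exact hsub hx0c
    set δ := min ε (lr n) with hδ
    have hδ0 : 0 < δ := lt_min hε (lr_pos n)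
    -- it contains a point off `K`
    obtain ⟨y, hyb, hyK⟩ : ∃ y ∈ ball x0 δ, y ∉ K := by
      by_contra hcon
      push Not at hcon
      have hbK : ball x0 δ ⊆ K := fun y hy => hcon y hy
      have hbc : ball x0 δ ⊆ c := by
        have h1 : ball x0 δ ⊆ connectedComponentIn K x0 :=
          (convex_ball x0 δ).isPreconnected.subset_connectedComponentIn (mem_ball_self hδ0) hbK
        rwa [← connectedComponentIn_eq hx0c] at h1
      have : x0 ∈ interior c := mem_interior.2 ⟨_, hbc, isOpen_ball, mem_ball_self hδ0⟩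
      exact hx0.2 this
    have hyP : y ∈ P0 :=
      interior_subset (hball (ball_subset_ball (min_le_left _ _) hyb))
    have hynd : y ∈ nd K n x :=
      closedBall_subset_nd (hcK hx0c) hxnd
        (ball_subset_closedBall (ball_subset_ball (min_le_right _ _) hyb))
    have h1 := hx y hynd hyK
    have h2 := hub y hyP hyK
    linarith

/-- **maximum principle**: no point of the hull is in the strong superlevel set -/
theorem upS_disjoint_fil {K w P0 : Set ℂ} {u : ℂ → ℝ} {b : ℝ} (hK : IsCompact K)
    (hw : ¬ Bornology.IsBounded wᶜ) (hP0w : P0 ⊆ w) (hfr : Disjoint (frontier P0) K)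
    (hpre : IsPreconnected (UpS K u b ∪ wᶜ))
    (hub : ∀ z ∈ P0, z ∉ K → u z ≤ b) : Disjoint (UpS K u b) (fil P0) := by
  rw [disjoint_left]
  intro z hz hzf
  refine hzf ⟨UpS K u b ∪ wᶜ, hpre, Or.inl hz, ?_, fun h => hw (h.subset subset_union_right)⟩
  rw [disjoint_union_left]
  exact ⟨upS_disjoint hK hfr hub, disjoint_compl_left_iff_subset.2 hP0w⟩

theorem max_le {K w P0 : Set ℂ} {u : ℂ → ℝ} {b : ℝ} (hK : IsCompact K)
    (hw : ¬ Bornology.IsBounded wᶜ) (hP0w : P0 ⊆ w) (hfr : Disjoint (frontier P0) K)
    (hpre : IsPreconnected (UpS K u b ∪ wᶜ))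
    (hub : ∀ z ∈ P0, z ∉ K → u z ≤ b) : ∀ z ∈ fil P0, z ∉ K → u z ≤ b := by
  intro z hz hzK
  by_contra h
  push Not at h
  exact disjoint_left.1 (upS_disjoint_fil hK hw hP0w hfr hpre hub) (Or.inl ⟨hzK, h⟩) hz

/-- two-sided version for a strongly monotone function -/
theorem max_abs {K w P0 : Set ℂ} {u : ℂ → ℝ} {a r : ℝ} (hK : IsCompact K)
    (hw : ¬ Bornology.IsBounded wᶜ) (hP0w : P0 ⊆ w) (hfr : Disjoint (frontier P0) K)
    (hsm : ∀ t, IsPreconnected (UpS K u t ∪ wᶜ) ∧ IsPreconnected (UpS K (fun z => - u z) t ∪ wᶜ))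
    (hub : ∀ z ∈ P0, z ∉ K → |u z - a| ≤ r) : ∀ z ∈ fil P0, z ∉ K → |u z - a| ≤ r := by
  intro z hz hzK
  have h1 := max_le (b := a + r) hK hw hP0w hfr (hsm (a + r)).1
    (fun y hy hyK => by have := abs_le.1 (hub y hy hyK); linarith [this.2]) z hz hzK
  have h2 := max_le (u := fun z => - u z) (b := r - a) hK hw hP0w hfr (hsm (r - a)).2
    (fun y hy hyK => by have := abs_le.1 (hub y hy hyK); linarith [this.1]) z hz hzK
  rw [abs_le]
  constructor <;> linarith

end Vale.Agent.P116.AD.H912
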